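import Vale.Agent.Lib.P216.helper60.Poly

namespace Vale.Agent.Results.P216.S60_Polycyclic

/-- Let `G` be a finite union of conjugates of cyclic subgroups (every element of `G` is
conjugate to an integer power of an element of a fixed finite set `S`). If `G` is virtually
polycyclic, that is, some finite-index subgroup `H` of `G` is solvable and every subgroup of
`H` is finitely generated, then `G` is virtually cyclic: some cyclic subgroup of `G` has
finite index. -/
theorem result (G : Type*) [Group G]
    (hG : ∃ S : Finset G, ∀ g : G, ∃ s ∈ S, ∃ n : ℤ, IsConj g (s ^ n))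
    (H : Subgroup G) [H.FiniteIndex] [Group.IsSolvable H]
    (hH : ∀ K : Subgroup H, K.FG) :
    ∃ g : G, (Subgroup.zpowers g).FiniteIndex :=
  Vale.Agent.Lib.P216.H60.Poly.virtuallyCyclic_of_virtuallyPolycyclic hG H hH

end Vale.Agent.Results.P216.S60_Polycyclic
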