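import Vale.Agent.Lib.P216.TorusBundle

namespace Vale.Agent.Results.P216.TorusBundleGroups

/-- Let `G` be a finite union of conjugates of cyclic subgroups (every element of `G` is
conjugate to an integer power of an element of a fixed finite set `S`). If `H` is a
finite-index subgroup of `G`, `N` is a normal subgroup of `H` isomorphic to `ℤ^n`, and
`H = N * ⟨t⟩` for some `t` in `H` (every `h` in `H` has `h * t ^ k` in `N` for some integer
`k`), then `n ≤ 1`. So no group with a finite-index subgroup that is `ℤ^n`-by-cyclic, `n ≥ 2`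
(for instance a semidirect product of `ℤ^n` with `ℤ`), is a finite union of conjugates of
cyclic subgroups. -/
theorem result (G : Type*) [Group G]
    (hG : ∃ S : Finset G, ∀ g : G, ∃ s ∈ S, ∃ n : ℤ, IsConj g (s ^ n))
    (H : Subgroup G) [H.FiniteIndex] (N : Subgroup H) [N.Normal] (t : H)
    (ht : ∀ h : H, ∃ k : ℤ, h * t ^ k ∈ N) (n : ℕ)
    (e : N ≃* Multiplicative (Fin n → ℤ)) : n ≤ 1 :=
  Vale.Agent.Lib.P216.torus_rank_le_one G hG H N t ht n e

end Vale.Agent.Results.P216.TorusBundleGroups
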