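import Vale.Agent.Lib.P216.Basic

namespace Vale.Agent.Results.P216.VirtualBetti

/-- If every element of `G` is conjugate to an integer power of an element of a fixed finite
set `S` (that is, `G` is a finite union of conjugates of cyclic subgroups), then no
finite-index subgroup of `G` maps onto `ℤ × ℤ`. -/
theorem result (G : Type*) [Group G]
    (hG : ∃ S : Finset G, ∀ g : G, ∃ s ∈ S, ∃ n : ℤ, IsConj g (s ^ n))
    (H : Subgroup G) [H.FiniteIndex] (f : H →* Multiplicative (ℤ × ℤ)) :
    ¬ Function.Surjective f :=
  Vale.Agent.Lib.P216.not_surjective_of_cyclicallyCovered hG H f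

end Vale.Agent.Results.P216.VirtualBetti
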